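import Mathlib
import Vale.Agent.Lib.P248.helper1.ConeAux

/-!
Volume of a cone over a compact base: at least (h / (n + 1)) times the volume of the base
(pool job 417, second copy).
-/

namespace Vale.Agent.Lib.P248.H96

open MeasureTheory Set
open scoped ENNReal
open Vale.Agent.Lib.P227 Vale.Agent.Lib.P248.H1

theorem isCompact_coneE {n : ℕ} (D : Set (EuclideanSpace ℝ (Fin n))) (hD : IsCompact D)
    (c : EuclideanSpace ℝ (Fin n)) (h : ℝ) : IsCompact (coneE D c h) := by
  have hf : Continuous (fun p : EuclideanSpace ℝ (Fin n) × ℝ =>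
      ecomb (p.2 * h) ((1 - p.2) • p.1 + p.2 • c)) := by
    have h1 : Continuous (fun p : EuclideanSpace ℝ (Fin n) × ℝ =>
        ((p.2 * h, (1 - p.2) • p.1 + p.2 • c) : ℝ × EuclideanSpace ℝ (Fin n))) := by
      fun_prop
    exact continuous_ecomb_prod.comp h1
  have himg : coneE D c h = (fun p : EuclideanSpace ℝ (Fin n) × ℝ =>
      ecomb (p.2 * h) ((1 - p.2) • p.1 + p.2 • c)) '' (D ×ˢ Icc (0:ℝ) 1) := by
    ext x
    constructor
    · rintro ⟨d, hd, r, hr0, hr1, rfl⟩
      exact ⟨(d, r), ⟨hd, hr0, hr1⟩, rfl⟩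
    · rintro ⟨⟨d, r⟩, ⟨hd, hr0, hr1⟩, rfl⟩
      exact ⟨d, hd, r, hr0, hr1, rfl⟩
  rw [himg]
  exact (hD.prod isCompact_Icc).image hf

theorem sec_coneE_ge {n : ℕ} (D : Set (EuclideanSpace ℝ (Fin n)))
    (c : EuclideanSpace ℝ (Fin n)) (h : ℝ) (hh : 0 < h) (t : ℝ) (ht : t ∈ Ico (0:ℝ) h) :
    ENNReal.ofReal ((1 - t / h) ^ n) * volume D ≤ volume (sec t (coneE D c h)) := by
  have hr0 : 0 ≤ t / h := div_nonneg ht.1 hh.le
  have hr1 : t / h < 1 := (div_lt_one hh).mpr ht.2
  have hsub : (AffineMap.homothety c (1 - t / h)) '' D ⊆ sec t (coneE D c h) := by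
    rintro _ ⟨d, hd, rfl⟩
    show ecomb t (AffineMap.homothety c (1 - t / h) d) ∈ coneE D c h
    refine ⟨d, hd, t / h, hr0, hr1.le, ?_⟩
    have e1 : t / h * h = t := div_mul_cancel₀ t hh.ne'
    have e2 : AffineMap.homothety c (1 - t / h) d = (1 - t / h) • d + (t / h) • c := by
      rw [AffineMap.homothety_apply]
      simp only [vsub_eq_sub, vadd_eq_add]
      module
    rw [e1, e2]
  calc ENNReal.ofReal ((1 - t / h) ^ n) * volume D
      = volume ((AffineMap.homothety c (1 - t / h)) '' D) := by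
        rw [Measure.addHaar_image_homothety, finrank_euclideanSpace_fin,
          abs_of_nonneg (pow_nonneg (by linarith) n)]
    _ ≤ volume (sec t (coneE D c h)) := measure_mono hsub

theorem lintegral_cone_profile (n : ℕ) (h : ℝ) (hh : 0 < h) :
    ∫⁻ t in Ico (0:ℝ) h, ENNReal.ofReal ((1 - t / h) ^ n) = ENNReal.ofReal (h / (n + 1)) := by
  have hcont : Continuous (fun t : ℝ => (1 - t / h) ^ n) := by fun_prop
  have hint : IntegrableOn (fun t : ℝ => (1 - t / h) ^ n) (Ico (0:ℝ) h) :=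
    (hcont.integrableOn_Icc).mono_set Ico_subset_Icc_self
  have hnn : 0 ≤ᵐ[volume.restrict (Ico (0:ℝ) h)] (fun t : ℝ => (1 - t / h) ^ n) := by
    refine (ae_restrict_iff' measurableSet_Ico).mpr (Filter.Eventually.of_forall fun t ht => ?_)
    have h1 : t / h ≤ 1 := (div_le_one hh).mpr ht.2.le
    exact pow_nonneg (by linarith) n
  rw [← ofReal_integral_eq_lintegral_ofReal hint hnn]
  congr 1
  rw [integral_Ico_eq_integral_Ioc, ← intervalIntegral.integral_of_le hh.le]
  have hderiv : ∀ x ∈ uIcc (0:ℝ) h,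
      HasDerivAt (fun t : ℝ => -(h / (n + 1)) * (1 - t / h) ^ (n + 1)) ((1 - x / h) ^ n) x := by
    intro x _
    have h1 : HasDerivAt (fun t : ℝ => 1 - t / h) (-(1 / h)) x := by
      have h0 := ((hasDerivAt_id x).div_const h).const_sub 1
      simpa using h0
    have h2 : HasDerivAt (fun t : ℝ => -(h / (n + 1)) * (1 - t / h) ^ (n + 1))
        (-(h / (n + 1)) * (((n + 1 : ℕ) : ℝ) * (1 - x / h) ^ (n + 1 - 1) * -(1 / h))) x :=
      (h1.pow (n + 1)).const_mul (-(h / (n + 1)))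
    refine h2.congr_deriv ?_
    have hn : (n : ℝ) + 1 ≠ 0 := by positivity
    rw [Nat.add_sub_cancel]
    push_cast
    field_simp
  rw [intervalIntegral.integral_eq_sub_of_hasDerivAt hderiv (hcont.intervalIntegrable _ _)]
  have h0 : (1 - h / h) = 0 := by rw [div_self hh.ne', sub_self]
  rw [h0]
  simp

theorem vol_cone_ge {n : ℕ} (D : Set (EuclideanSpace ℝ (Fin n))) (hD : IsCompact D)
    (c : EuclideanSpace ℝ (Fin n)) (h : ℝ) (hh : 0 < h) :
    ENNReal.ofReal (h / (n + 1)) * volume D ≤ volume (coneE D c h) := by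
  have hmeas : MeasurableSet (coneE D c h) := (isCompact_coneE D hD c h).isClosed.measurableSet
  have hmf : Measurable (fun t : ℝ => ENNReal.ofReal ((1 - t / h) ^ n)) := by fun_prop
  rw [volume_eq_lintegral_sec hmeas]
  calc ENNReal.ofReal (h / (n + 1)) * volume D
      = (∫⁻ t in Ico (0:ℝ) h, ENNReal.ofReal ((1 - t / h) ^ n)) * volume D := by
        rw [lintegral_cone_profile n h hh]
    _ = ∫⁻ t in Ico (0:ℝ) h, ENNReal.ofReal ((1 - t / h) ^ n) * volume D := by
        rw [lintegral_mul_const _ hmf]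
    _ ≤ ∫⁻ t in Ico (0:ℝ) h, volume (sec t (coneE D c h)) :=
        setLIntegral_mono' measurableSet_Ico (fun t ht => sec_coneE_ge D c h hh t ht)
    _ ≤ ∫⁻ t, volume (sec t (coneE D c h)) := setLIntegral_le_lintegral _ _

end Vale.Agent.Lib.P248.H96
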