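import Mathlib
import Vale.Agent.Lib.P248.helper96.ConeVol

/-!
Volume of a cone over a base: the lower bound under measurability of the cone only
(variant of pool job 417, second copy).
-/

namespace Vale.Agent.Lib.P248.H96

open MeasureTheory Set
open scoped ENNReal
open Vale.Agent.Lib.P227 Vale.Agent.Lib.P248.H1

theorem vol_cone_ge_of_measurable {n : ℕ} (D : Set (EuclideanSpace ℝ (Fin n)))
    (c : EuclideanSpace ℝ (Fin n)) (h : ℝ) (hh : 0 < h) (hK : MeasurableSet (coneE D c h)) :
    ENNReal.ofReal (h / (n + 1)) * volume D ≤ volume (coneE D c h) := by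
  have hmf : Measurable (fun t : ℝ => ENNReal.ofReal ((1 - t / h) ^ n)) := by fun_prop
  rw [volume_eq_lintegral_sec hK]
  calc ENNReal.ofReal (h / (n + 1)) * volume D
      = (∫⁻ t in Ico (0:ℝ) h, ENNReal.ofReal ((1 - t / h) ^ n)) * volume D := by
        rw [lintegral_cone_profile n h hh]
    _ = ∫⁻ t in Ico (0:ℝ) h, ENNReal.ofReal ((1 - t / h) ^ n) * volume D := by
        rw [lintegral_mul_const _ hmf]
    _ ≤ ∫⁻ t in Ico (0:ℝ) h, volume (sec t (coneE D c h)) :=
        setLIntegral_mono' measurableSet_Ico (fun t ht => sec_coneE_ge D c h hh t ht)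
    _ ≤ ∫⁻ t, volume (sec t (coneE D c h)) := setLIntegral_le_lintegral _ _

end Vale.Agent.Lib.P248.H96
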