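import Mathlib
import Vale.Agent.Lib.P248.helper25.ABDefs

/-!
# P248, pool job AB3 (helper96, backup copy): the section of the anti-blocking dual

For an anti-blocking set `A` of `R^(n+1)` the section of the dual `dual A` by the coordinate
hyperplane `x_i = 0` is the dual of the section of `A`.
-/

open Vale.Agent.Lib.P248.H25 MeasureTheory
open scoped ENNReal

namespace Vale.Agent.Lib.P248.H96

theorem sec_dual {n : ℕ} {A : Set (Fin (n + 1) → ℝ)} (h : AB A) (i : Fin (n + 1)) :
    sec (dual A) i = dual (sec A i) := by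
  ext z'
  constructor
  · intro hz
    have hz' : (∀ j, 0 ≤ (i.insertNth (0 : ℝ) z' : Fin (n + 1) → ℝ) j) ∧
        ∀ x ∈ A, ∑ j, x j * (i.insertNth (0 : ℝ) z' : Fin (n + 1) → ℝ) j ≤ 1 := hz
    show (∀ k, 0 ≤ z' k) ∧ ∀ z ∈ sec A i, ∑ k, z k * z' k ≤ 1
    refine ⟨fun k => ?_, fun z hzA => ?_⟩
    · have h1 := hz'.1 (i.succAbove k)
      rwa [Fin.insertNth_apply_succAbove] at h1
    · have hzA' : (i.insertNth (0 : ℝ) z : Fin (n + 1) → ℝ) ∈ A := hzA
      have h2 := hz'.2 _ hzA'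
      rw [Fin.sum_univ_succAbove _ i] at h2
      simp only [Fin.insertNth_apply_same, Fin.insertNth_apply_succAbove, mul_zero,
        zero_add] at h2
      exact h2
  · intro hz
    have hz' : (∀ k, 0 ≤ z' k) ∧ ∀ z ∈ sec A i, ∑ k, z k * z' k ≤ 1 := hz
    show (∀ j, 0 ≤ (i.insertNth (0 : ℝ) z' : Fin (n + 1) → ℝ) j) ∧
        ∀ x ∈ A, ∑ j, x j * (i.insertNth (0 : ℝ) z' : Fin (n + 1) → ℝ) j ≤ 1
    refine ⟨?_, fun x hx => ?_⟩
    · refine (Fin.forall_iff_succAbove i).2 ⟨?_, fun k => ?_⟩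
      · rw [Fin.insertNth_apply_same]
      · rw [Fin.insertNth_apply_succAbove]
        exact hz'.1 k
    · rw [Fin.sum_univ_succAbove _ i]
      simp only [Fin.insertNth_apply_same, Fin.insertNth_apply_succAbove, mul_zero, zero_add]
      have hmem : (fun k => x (i.succAbove k)) ∈ sec A i := by
        show (i.insertNth (0 : ℝ) (fun k => x (i.succAbove k)) : Fin (n + 1) → ℝ) ∈ A
        refine h.2 x hx _ ?_
        refine (Fin.forall_iff_succAbove i).2 ⟨?_, fun k => ?_⟩
        · rw [Fin.insertNth_apply_same]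
          exact ⟨le_refl _, h.1 x hx i⟩
        · rw [Fin.insertNth_apply_succAbove]
          exact ⟨h.1 x hx _, le_refl _⟩
      exact hz'.2 _ hmem

end Vale.Agent.Lib.P248.H96
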