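import Mathlib
import Vale.Agent.Lib.P248.helper37.Q2Defs

/-!
The algebraic inequality for labelled trees (pool job 458): for a tree of height m whose
labels satisfy the local inequality at every node,
(m + 1)^(m + 1) ≤ b * ∑ k, Om k / k!.
-/

open MeasureTheory Set

namespace Vale.Agent.Lib.P248.H96T

open Vale.Agent.Lib.P248.H37 Vale.Agent.Lib.P248.H37Q

/-! ### The labels of a tree, by definitional unfolding -/

theorem u_leaf : (LT.leaf).u = 1 := rfl

theorem b_leaf : (LT.leaf).b = 1 := rfl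

theorem u_node {m : ℕ} (u b : ℝ) (ch : Fin (m + 1) → LT m) : (LT.node u b ch).u = u := rfl

theorem b_node {m : ℕ} (u b : ℝ) (ch : Fin (m + 1) → LT m) : (LT.node u b ch).b = b := rfl

theorem om_zero {m : ℕ} (t : LT m) : t.Om 0 = t.u := rfl

theorem om_succ_node {m : ℕ} (k : ℕ) (u b : ℝ) (ch : Fin (m + 1) → LT m) :
    (LT.node u b ch).Om (k + 1) = ∑ i, (ch i).Om k := rfl

theorem ok_node {m : ℕ} (u b : ℝ) (ch : Fin (m + 1) → LT m) :
    (LT.node u b ch).Ok ↔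
      (0 < u ∧ 0 < b ∧ (∀ i, (ch i).Ok) ∧ ∑ i, (1 + (ch i).u / u) * (ch i).b ≤ b) :=
  Iff.rfl

theorem ub_pos {m : ℕ} (s : LT m) (hs : s.Ok) : 0 < s.u ∧ 0 < s.b := by
  cases s with
  | leaf => exact ⟨one_pos, one_pos⟩
  | node u b ch =>
    obtain ⟨hu, hb, _, _⟩ := (ok_node u b ch).mp hs
    exact ⟨hu, hb⟩

/-! ### The root value attached to a label -/

/-- The positive real whose power N + 1 is (N choose d) * u. -/
noncomputable def xr (N d : ℕ) (u : ℝ) : ℝ := ((N.choose d : ℝ) * u) ^ (((N + 1 : ℕ) : ℝ))⁻¹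

theorem xr_pos {N d : ℕ} (hd : d ≤ N) {u : ℝ} (hu : 0 < u) : 0 < xr N d u :=
  Real.rpow_pos_of_pos (mul_pos (by exact_mod_cast Nat.choose_pos hd) hu) _

theorem xr_nonneg {N d : ℕ} {u : ℝ} (hu : 0 ≤ u) : 0 ≤ xr N d u :=
  Real.rpow_nonneg (mul_nonneg (Nat.cast_nonneg _) hu) _

theorem xr_pow {N d : ℕ} {u : ℝ} (hu : 0 ≤ u) : xr N d u ^ (N + 1) = (N.choose d : ℝ) * u :=
  Real.rpow_inv_natCast_pow (mul_nonneg (Nat.cast_nonneg _) hu) (Nat.succ_ne_zero N)

theorem xr_zero_one (N : ℕ) : xr N 0 1 = 1 := by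
  simp [xr]

/-! ### The weighted power sums over the nodes -/

/-- The sum over the nodes of the tree of (height)! times the power p of the root value of the
node (leaves count 1). -/
noncomputable def Phi (N p : ℕ) : {m : ℕ} → LT m → ℝ
  | _, LT.leaf => 1
  | _, @LT.node m u _ ch =>
      ((m + 1).factorial : ℝ) * xr N (m + 1) u ^ p + ∑ i, Phi N p (ch i)

theorem phi_leaf (N p : ℕ) : Phi N p LT.leaf = 1 := rfl

theorem phi_node (N p : ℕ) {m : ℕ} (u b : ℝ) (ch : Fin (m + 1) → LT m) :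
    Phi N p (LT.node u b ch) =
      ((m + 1).factorial : ℝ) * xr N (m + 1) u ^ p + ∑ i, Phi N p (ch i) := rfl

theorem phi_pos (N p : ℕ) {m : ℕ} (s : LT m) (hs : s.Ok) : 0 < Phi N p s := by
  induction s with
  | leaf => rw [phi_leaf]; exact one_pos
  | @node m u b ch ih =>
    obtain ⟨hu, hb, hch, _⟩ := (ok_node u b ch).mp hs
    rw [phi_node]
    have h1 : 0 ≤ ((m + 1).factorial : ℝ) * xr N (m + 1) u ^ p :=
      mul_nonneg (Nat.cast_nonneg _) (pow_nonneg (xr_nonneg hu.le) _)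
    have h2 : 0 < ∑ i, Phi N p (ch i) :=
      Finset.sum_pos (fun i _ => ih i (hch i)) Finset.univ_nonempty
    linarith

theorem phi_zero (N : ℕ) {m : ℕ} (s : LT m) : Phi N 0 s = ((m + 1).factorial : ℝ) := by
  induction s with
  | leaf => rw [phi_leaf]; simp
  | @node m u b ch ih =>
    rw [phi_node, pow_zero, mul_one]
    simp only [ih]
    rw [Finset.sum_const, Finset.card_univ, Fintype.card_fin, nsmul_eq_mul,
      Nat.factorial_succ (m + 1)]
    push_cast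
    ring

theorem young (p : ℕ) (a b : ℝ) (ha : 0 ≤ a) (hb : 0 ≤ b) :
    ((p : ℝ) + 1) * a * b ^ p ≤ a ^ (p + 1) + p * b ^ (p + 1) := by
  induction p with
  | zero => simp
  | succ p ih =>
    have h1 : 0 ≤ (a - b) * (a ^ (p + 1) - b ^ (p + 1)) := by
      rcases le_total a b with h | h
      · exact mul_nonneg_of_nonpos_of_nonpos (by linarith)
          (by linarith [pow_le_pow_left₀ ha h (p + 1)])
      · exact mul_nonneg (by linarith) (by linarith [pow_le_pow_left₀ hb h (p + 1)])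
    have h2 := mul_le_mul_of_nonneg_left ih hb
    have h3 : a ^ (p + 1 + 1) + ((p + 1 : ℕ) : ℝ) * b ^ (p + 1 + 1)
        - (((p + 1 : ℕ) : ℝ) + 1) * a * b ^ (p + 1)
        = b * (a ^ (p + 1) + p * b ^ (p + 1) - ((p : ℝ) + 1) * a * b ^ p)
          + (a - b) * (a ^ (p + 1) - b ^ (p + 1)) := by
      push_cast
      ring
    linarith

theorem phi_young (N p : ℕ) (x0 : ℝ) (hx0 : 0 ≤ x0) {m : ℕ} (s : LT m) (hs : s.Ok) :
    ((p : ℝ) + 1) * x0 * Phi N p s ≤ x0 ^ (p + 1) * Phi N 0 s + p * Phi N (p + 1) s := by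
  induction s with
  | leaf =>
    rw [phi_leaf, phi_leaf, phi_leaf]
    have h := young p x0 1 hx0 zero_le_one
    simpa using h
  | @node m u b ch ih =>
    obtain ⟨hu, hb, hch, _⟩ := (ok_node u b ch).mp hs
    rw [phi_node, phi_node, phi_node, pow_zero, mul_one]
    have h1 := young p x0 (xr N (m + 1) u) hx0 (xr_nonneg hu.le)
    have h2 : ∑ i, ((p : ℝ) + 1) * x0 * Phi N p (ch i)
        ≤ ∑ i, (x0 ^ (p + 1) * Phi N 0 (ch i) + p * Phi N (p + 1) (ch i)) :=
      Finset.sum_le_sum (fun i _ => ih i (hch i))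
    rw [← Finset.mul_sum, Finset.sum_add_distrib, ← Finset.mul_sum, ← Finset.mul_sum] at h2
    have hw : (0 : ℝ) ≤ ((m + 1).factorial : ℝ) := Nat.cast_nonneg _
    have h3 := mul_le_mul_of_nonneg_left h1 hw
    linarith

theorem phi_top (N : ℕ) {m : ℕ} (s : LT m) (hs : s.Ok) (hmN : m ≤ N) :
    Phi N (N + 1) s = ∑ j ∈ Finset.range (m + 1),
      ((N.factorial : ℝ) / ((N - m + j).factorial : ℝ)) * s.Om j := by
  induction s with
  | leaf =>
    simp [phi_leaf, om_zero, u_leaf, Nat.factorial_ne_zero]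
  | @node m u b ch ih =>
    obtain ⟨hu, hb, hch, _⟩ := (ok_node u b ch).mp hs
    rw [phi_node, xr_pow hu.le, Finset.sum_range_succ', om_zero, u_node]
    have hidx : ∀ j, N - (m + 1) + (j + 1) = N - m + j := fun j => by omega
    simp only [hidx, om_succ_node]
    have hsw : ∑ j ∈ Finset.range (m + 1),
        ((N.factorial : ℝ) / ((N - m + j).factorial : ℝ)) * ∑ i, (ch i).Om j
        = ∑ i, Phi N (N + 1) (ch i) := by
      simp only [Finset.mul_sum]
      rw [Finset.sum_comm]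
      refine Finset.sum_congr rfl (fun i _ => ?_)
      rw [ih i (hch i) (by omega)]
    rw [hsw]
    have hfac : ((m + 1).factorial : ℝ) * (N.choose (m + 1) : ℝ)
        = (N.factorial : ℝ) / ((N - (m + 1) + 0).factorial : ℝ) := by
      rw [add_zero, eq_div_iff (by positivity)]
      have h := Nat.choose_mul_factorial_mul_factorial hmN
      have h' : ((N.choose (m + 1) : ℕ) : ℝ) * ((m + 1).factorial : ℝ)
          * ((N - (m + 1)).factorial : ℝ) = (N.factorial : ℝ) := by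
        exact_mod_cast h
      rw [← h']
      ring
    rw [← mul_assoc, hfac]
    ring

theorem amgm_step (N d : ℕ) (hdN : d ≤ N) (ρ : ℝ) (hρ : 0 ≤ ρ) :
    ((N : ℝ) + 1) * ρ ^ (N + 1 - d) ≤ d + ((N : ℝ) + 1 - d) * ρ ^ (N + 1) := by
  have hN : (0 : ℝ) < (N : ℝ) + 1 := by positivity
  have hdle : (d : ℝ) ≤ (N : ℝ) := by exact_mod_cast hdN
  have hw : (d : ℝ) / ((N : ℝ) + 1) + ((N : ℝ) + 1 - d) / ((N : ℝ) + 1) = 1 := by
    field_simp
    ring
  have h := Real.geom_mean_le_arith_mean2_weighted (w₁ := (d : ℝ) / ((N : ℝ) + 1))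
    (w₂ := ((N : ℝ) + 1 - d) / ((N : ℝ) + 1)) (p₁ := 1) (p₂ := ρ ^ (N + 1))
    (by positivity) (div_nonneg (by linarith) hN.le) zero_le_one (pow_nonneg hρ _) hw
  have hpow : (ρ ^ (N + 1)) ^ (((N : ℝ) + 1 - d) / ((N : ℝ) + 1)) = ρ ^ (N + 1 - d) := by
    rw [← Real.rpow_natCast ρ (N + 1), ← Real.rpow_mul hρ, ← Real.rpow_natCast ρ (N + 1 - d)]
    congr 1
    rw [Nat.cast_sub (by omega : d ≤ N + 1)]
    push_cast
    field_simp
  rw [Real.one_rpow, one_mul, hpow] at h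
  have h2 := mul_le_mul_of_nonneg_left h hN.le
  have h3 : ((N : ℝ) + 1) * ((d : ℝ) / ((N : ℝ) + 1) * 1
      + ((N : ℝ) + 1 - d) / ((N : ℝ) + 1) * ρ ^ (N + 1))
      = d + ((N : ℝ) + 1 - d) * ρ ^ (N + 1) := by
    field_simp
  linarith

/-- The weight attached to a subtree. -/
noncomputable def beta (N : ℕ) {m : ℕ} (s : LT m) : ℝ :=
  s.b * xr N m s.u ^ (N - m) * (m.factorial : ℝ) / ((N : ℝ) + 1) ^ m

theorem beta_pos (N : ℕ) {m : ℕ} (s : LT m) (hs : s.Ok) (hmN : m ≤ N) : 0 < beta N s := by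
  obtain ⟨hu, hb⟩ := ub_pos s hs
  have hx := xr_pos hmN hu
  have hN1 : (0 : ℝ) < (N : ℝ) + 1 := by positivity
  exact div_pos (mul_pos (mul_pos hb (pow_pos hx _)) (by exact_mod_cast Nat.factorial_pos m))
    (pow_pos hN1 _)

theorem beta_child (N : ℕ) {m : ℕ} (u : ℝ) (hu : 0 < u) (c : LT m) (hc : c.Ok)
    (hmN : m + 1 ≤ N) :
    beta N c ≤ (1 + c.u / u) * c.b *
      (xr N (m + 1) u ^ (N - m) * ((m + 1).factorial : ℝ) / ((N : ℝ) + 1) ^ (m + 1)) := by
  obtain ⟨hcu, hcb⟩ := ub_pos c hc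
  have hx : 0 < xr N (m + 1) u := xr_pos hmN hu
  have hxc : 0 < xr N m c.u := xr_pos (by omega) hcu
  have hN1 : (0 : ℝ) < (N : ℝ) + 1 := by positivity
  have hρ : 0 ≤ xr N m c.u / xr N (m + 1) u := (div_pos hxc hx).le
  have ham := amgm_step N (m + 1) hmN (xr N m c.u / xr N (m + 1) u) hρ
  have hρpow : (xr N m c.u / xr N (m + 1) u) ^ (N + 1)
      = ((N.choose m : ℝ) * c.u) / ((N.choose (m + 1) : ℝ) * u) := by
    rw [div_pow, xr_pow hcu.le, xr_pow hu.le]
  have hchoose : ((N.choose (m + 1) : ℝ)) * ((m : ℝ) + 1) = (N.choose m : ℝ) * ((N : ℝ) - m) := by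
    have h := Nat.choose_succ_right_eq N m
    have hcast : ((N - m : ℕ) : ℝ) = (N : ℝ) - m := Nat.cast_sub (by omega)
    rw [← hcast]
    exact_mod_cast h
  have hcpos : (0 : ℝ) < (N.choose (m + 1) : ℝ) := by exact_mod_cast Nat.choose_pos hmN
  have e3 : ((N : ℝ) - m) * (((N.choose m : ℝ) * c.u) / ((N.choose (m + 1) : ℝ) * u))
      = ((m : ℝ) + 1) * (c.u / u) := by
    rw [← mul_div_assoc, ← mul_assoc, mul_comm ((N : ℝ) - m) _, ← hchoose]
    field_simp
  have h1 : ((N : ℝ) + 1) * (xr N m c.u / xr N (m + 1) u) ^ (N - m)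
      ≤ ((m : ℝ) + 1) * (1 + c.u / u) := by
    have e1 : N + 1 - (m + 1) = N - m := by omega
    rw [e1, hρpow] at ham
    have e2 : (((m + 1 : ℕ) : ℝ)) + ((N : ℝ) + 1 - ((m + 1 : ℕ) : ℝ))
        * (((N.choose m : ℝ) * c.u) / ((N.choose (m + 1) : ℝ) * u))
        = ((m : ℝ) + 1) * (1 + c.u / u) := by
      have e4 : (N : ℝ) + 1 - ((m + 1 : ℕ) : ℝ) = (N : ℝ) - m := by
        push_cast
        ring
      rw [e4, e3]
      push_cast
      ring
    rw [e2] at ham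
    exact ham
  have h2 : ((N : ℝ) + 1) * xr N m c.u ^ (N - m)
      ≤ ((m : ℝ) + 1) * (1 + c.u / u) * xr N (m + 1) u ^ (N - m) := by
    have hxp : 0 < xr N (m + 1) u ^ (N - m) := pow_pos hx _
    have h3 := mul_le_mul_of_nonneg_right h1 hxp.le
    rw [div_pow] at h3
    have e : ((N : ℝ) + 1) * (xr N m c.u ^ (N - m) / xr N (m + 1) u ^ (N - m))
        * xr N (m + 1) u ^ (N - m) = ((N : ℝ) + 1) * xr N m c.u ^ (N - m) := by
      field_simp
    rw [e] at h3
    exact h3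
  have hK : 0 ≤ c.b * (m.factorial : ℝ) / ((N : ℝ) + 1) ^ (m + 1) :=
    div_nonneg (mul_nonneg hcb.le (Nat.cast_nonneg _)) (pow_pos hN1 _).le
  have h4 := mul_le_mul_of_nonneg_left h2 hK
  have e5 : beta N c = c.b * (m.factorial : ℝ) / ((N : ℝ) + 1) ^ (m + 1)
      * (((N : ℝ) + 1) * xr N m c.u ^ (N - m)) := by
    show c.b * xr N m c.u ^ (N - m) * (m.factorial : ℝ) / ((N : ℝ) + 1) ^ m = _
    rw [pow_succ]
    field_simp
  have e6 : c.b * (m.factorial : ℝ) / ((N : ℝ) + 1) ^ (m + 1)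
      * (((m : ℝ) + 1) * (1 + c.u / u) * xr N (m + 1) u ^ (N - m))
      = (1 + c.u / u) * c.b *
      (xr N (m + 1) u ^ (N - m) * ((m + 1).factorial : ℝ) / ((N : ℝ) + 1) ^ (m + 1)) := by
    rw [Nat.factorial_succ]
    push_cast
    ring
  rw [e5, ← e6]
  exact h4

theorem beta_step (N : ℕ) {m : ℕ} (u b : ℝ) (ch : Fin (m + 1) → LT m)
    (hs : (LT.node u b ch).Ok) (hmN : m + 1 ≤ N) :
    ∑ i, beta N (ch i) ≤ beta N (LT.node u b ch) * xr N (m + 1) u := by
  obtain ⟨hu, hb, hch, hsum⟩ := (ok_node u b ch).mp hs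
  have hx : 0 < xr N (m + 1) u := xr_pos hmN hu
  have hN1 : (0 : ℝ) < (N : ℝ) + 1 := by positivity
  have hKx : 0 ≤ xr N (m + 1) u ^ (N - m) * ((m + 1).factorial : ℝ) / ((N : ℝ) + 1) ^ (m + 1) :=
    div_nonneg (mul_nonneg (pow_pos hx _).le (Nat.cast_nonneg _)) (pow_pos hN1 _).le
  have h1 : ∑ i, beta N (ch i) ≤ ∑ i, (1 + (ch i).u / u) * (ch i).b *
      (xr N (m + 1) u ^ (N - m) * ((m + 1).factorial : ℝ) / ((N : ℝ) + 1) ^ (m + 1)) :=
    Finset.sum_le_sum (fun i _ => beta_child N u hu (ch i) (hch i) hmN)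
  rw [← Finset.sum_mul] at h1
  have h2 := mul_le_mul_of_nonneg_right hsum hKx
  have e : beta N (LT.node u b ch) * xr N (m + 1) u
      = b * (xr N (m + 1) u ^ (N - m) * ((m + 1).factorial : ℝ) / ((N : ℝ) + 1) ^ (m + 1)) := by
    show b * xr N (m + 1) u ^ (N - (m + 1)) * ((m + 1).factorial : ℝ) / ((N : ℝ) + 1) ^ (m + 1)
      * xr N (m + 1) u = _
    have e1 : N - m = N - (m + 1) + 1 := by omega
    rw [e1, pow_succ]
    ring
  rw [e]
  exact h1.trans h2

theorem key (N : ℕ) {m : ℕ} (s : LT m) (hs : s.Ok) (hmN : m ≤ N) :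
    ((m : ℝ) + 1) * (m.factorial : ℝ) ^ 2 ≤ beta N s * Phi N (m + 1) s := by
  induction s with
  | leaf =>
    have hb : beta N LT.leaf = 1 := by
      show (LT.leaf).b * xr N 0 (LT.leaf).u ^ (N - 0) * ((0 : ℕ).factorial : ℝ)
        / ((N : ℝ) + 1) ^ 0 = 1
      rw [b_leaf, u_leaf, xr_zero_one]
      simp
    rw [hb, phi_leaf]
    simp
  | @node m u b ch ih =>
    obtain ⟨hu, hb, hch, hsum⟩ := (ok_node u b ch).mp hs
    have hx : 0 < xr N (m + 1) u := xr_pos hmN hu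
    have hB : ∀ i, 0 < beta N (ch i) := fun i => beta_pos N (ch i) (hch i) (by omega)
    have hF : ∀ i, 0 < Phi N (m + 1) (ch i) := fun i => phi_pos N (m + 1) (ch i) (hch i)
    have hIH : ∀ i, ((m : ℝ) + 1) * (m.factorial : ℝ) ^ 2
        ≤ beta N (ch i) * Phi N (m + 1) (ch i) := fun i => ih i (hch i) (by omega)
    have hKpos : (0 : ℝ) < ((m : ℝ) + 1) * (m.factorial : ℝ) ^ 2 := by positivity
    have hsB : ∀ i, Real.sqrt (beta N (ch i)) ^ 2 = beta N (ch i) :=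
      fun i => Real.sq_sqrt (hB i).le
    have hsF : ∀ i, Real.sqrt (Phi N (m + 1) (ch i)) ^ 2 = Phi N (m + 1) (ch i) :=
      fun i => Real.sq_sqrt (hF i).le
    have hCS : ((m : ℝ) + 1) ^ 2 * (((m : ℝ) + 1) * (m.factorial : ℝ) ^ 2)
        ≤ (∑ i, beta N (ch i)) * (∑ i, Phi N (m + 1) (ch i)) := by
      have h1 := Finset.sum_mul_sq_le_sq_mul_sq Finset.univ
        (fun i => Real.sqrt (beta N (ch i))) (fun i => Real.sqrt (Phi N (m + 1) (ch i)))
      simp only [hsB, hsF] at h1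
      have h2 : ((m : ℝ) + 1) * Real.sqrt (((m : ℝ) + 1) * (m.factorial : ℝ) ^ 2)
          ≤ ∑ i, Real.sqrt (beta N (ch i)) * Real.sqrt (Phi N (m + 1) (ch i)) := by
        have h : ∑ _i : Fin (m + 1), Real.sqrt (((m : ℝ) + 1) * (m.factorial : ℝ) ^ 2)
            ≤ ∑ i, Real.sqrt (beta N (ch i)) * Real.sqrt (Phi N (m + 1) (ch i)) := by
          refine Finset.sum_le_sum (fun i _ => ?_)
          rw [← Real.sqrt_mul (hB i).le]
          exact Real.sqrt_le_sqrt (hIH i)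
        rw [Finset.sum_const, Finset.card_univ, Fintype.card_fin, nsmul_eq_mul] at h
        push_cast at h
        exact h
      have h3 := pow_le_pow_left₀ (by positivity) h2 2
      rw [mul_pow, Real.sq_sqrt hKpos.le] at h3
      linarith
    have hstep := beta_step N u b ch hs hmN
    have hFsum : 0 < ∑ i, Phi N (m + 1) (ch i) :=
      Finset.sum_pos (fun i _ => hF i) Finset.univ_nonempty
    have hY : ((m : ℝ) + 2) * xr N (m + 1) u * ∑ i, Phi N (m + 1) (ch i)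
        ≤ ((m : ℝ) + 1) * Phi N (m + 1 + 1) (LT.node u b ch) := by
      have h2 : ∑ i, (((m + 1 : ℕ) : ℝ) + 1) * xr N (m + 1) u * Phi N (m + 1) (ch i)
          ≤ ∑ i, (xr N (m + 1) u ^ (m + 1 + 1) * Phi N 0 (ch i)
            + ((m + 1 : ℕ) : ℝ) * Phi N (m + 1 + 1) (ch i)) :=
        Finset.sum_le_sum (fun i _ => phi_young N (m + 1) (xr N (m + 1) u) hx.le (ch i) (hch i))
      simp only [phi_zero] at h2
      rw [← Finset.mul_sum, Finset.sum_add_distrib, ← Finset.mul_sum, Finset.sum_const,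
        Finset.card_univ, Fintype.card_fin, nsmul_eq_mul, ← Finset.mul_sum] at h2
      rw [phi_node]
      push_cast at h2 ⊢
      linarith
    have hβ : 0 < beta N (LT.node u b ch) := beta_pos N _ hs hmN
    have hm2 : (0 : ℝ) ≤ (m : ℝ) + 2 := by positivity
    have hm1 : (0 : ℝ) < (m : ℝ) + 1 := by positivity
    have e0 := mul_le_mul_of_nonneg_left hCS hm2
    have e1 := mul_le_mul_of_nonneg_left
      (mul_le_mul_of_nonneg_right hstep hFsum.le) hm2
    have e2 := mul_le_mul_of_nonneg_left hY hβ.le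
    have e3 : ((m : ℝ) + 1) * (((m : ℝ) + 2) * ((m : ℝ) + 1)
        * (((m : ℝ) + 1) * (m.factorial : ℝ) ^ 2))
        ≤ ((m : ℝ) + 1) * (beta N (LT.node u b ch) * Phi N (m + 1 + 1) (LT.node u b ch)) := by
      linarith
    have e4 := le_of_mul_le_mul_left e3 hm1
    rw [Nat.factorial_succ]
    push_cast
    have e5 : ((m : ℝ) + 1 + 1) * (((m : ℝ) + 1) * (m.factorial : ℝ)) ^ 2
        = ((m : ℝ) + 2) * ((m : ℝ) + 1) * (((m : ℝ) + 1) * (m.factorial : ℝ) ^ 2) := by ring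
    rw [e5]
    exact e4

theorem tree_alg {m : ℕ} (t : LT m) (ht : t.Ok) :
    ((m : ℝ) + 1) ^ (m + 1) ≤
      t.b * ∑ k ∈ Finset.range (m + 1), t.Om k / (k.factorial : ℝ) := by
  have hkey := key m t ht le_rfl
  have htop := phi_top m t ht le_rfl
  have hbeta : beta m t = t.b * (m.factorial : ℝ) / ((m : ℝ) + 1) ^ m := by
    show t.b * xr m m t.u ^ (m - m) * (m.factorial : ℝ) / ((m : ℝ) + 1) ^ m = _
    rw [Nat.sub_self, pow_zero, mul_one]
  have hsum : Phi m (m + 1) t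
      = (m.factorial : ℝ) * ∑ k ∈ Finset.range (m + 1), t.Om k / (k.factorial : ℝ) := by
    rw [htop, Finset.mul_sum]
    refine Finset.sum_congr rfl (fun j _ => ?_)
    rw [Nat.sub_self, zero_add]
    ring
  rw [hbeta, hsum] at hkey
  have hfact : (0 : ℝ) < (m.factorial : ℝ) := by exact_mod_cast Nat.factorial_pos m
  have hN1 : (0 : ℝ) < (m : ℝ) + 1 := by positivity
  have hpow : (0 : ℝ) < ((m : ℝ) + 1) ^ m := pow_pos hN1 m
  have e : t.b * (m.factorial : ℝ) / ((m : ℝ) + 1) ^ m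
      * ((m.factorial : ℝ) * ∑ k ∈ Finset.range (m + 1), t.Om k / (k.factorial : ℝ))
      = (m.factorial : ℝ) ^ 2
        * (t.b * ∑ k ∈ Finset.range (m + 1), t.Om k / (k.factorial : ℝ)) / ((m : ℝ) + 1) ^ m := by
    ring
  rw [e, le_div_iff₀ hpow] at hkey
  have h2 : (m.factorial : ℝ) ^ 2 * (((m : ℝ) + 1) ^ (m + 1))
      ≤ (m.factorial : ℝ) ^ 2
        * (t.b * ∑ k ∈ Finset.range (m + 1), t.Om k / (k.factorial : ℝ)) := by
    have e2 : (m.factorial : ℝ) ^ 2 * (((m : ℝ) + 1) ^ (m + 1))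
        = ((m : ℝ) + 1) * (m.factorial : ℝ) ^ 2 * ((m : ℝ) + 1) ^ m := by
      rw [pow_succ]
      ring
    rw [e2]
    exact hkey
  exact le_of_mul_le_mul_left h2 (pow_pos hfact 2)

end Vale.Agent.Lib.P248.H96T
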